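import Vale.Agent.P235.K5.H578.NHalf

set_option linter.all false

/-!
# P235, line SX, row [S4], second half: the N half with the exact value on the torsos (helper452)
-/

namespace Vale.Agent.P235.K5.SX.H452

open Finset Function Vale.Agent.P235 Vale.Agent.P235.H684 Vale.Agent.P235.K5
  Vale.Agent.P235.K5.H578

section

variable {n T k : ℕ} (Z : Tor n T k)

/-- **The N half**, with the value of `F` on the torsos. -/
theorem n_half_eq (hk : 1 ≤ k) {d : Fin n → Fin n → ℝ} {C1 : ℝ} (hC1 : 0 ≤ C1)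
    {μ : Fin T → (Fin n → Bool) → ℝ} {Λ : ℝ} (hΛ : 0 < Λ) (hμ : ∀ t, IsLaw (μ t))
    (hcons : Z.ConsT μ)
    (hfar : ∀ (s : ℕ → Fin T) (N : ℕ), Path Z.tree s N → ∀ z : Fin n, Z.tor z = s N →
      ∀ r : ℝ, 0 < r → (∀ a ∈ Z.S (s 1), r ≤ d z a) →
      ∃ (c : ℝ) (Ω : Type) (_ : Fintype Ω) (w : Ω → ℝ) (X : ℕ → Ω → (Fin n → Bool)),
        Z.CoupT μ s N z c w X ∧ r ≤ C1 * (Λ * c)) :
    ∃ F : Fin n → Fin n → ℝ, IsL1 F ∧
      (∀ t, ∀ p ∈ Z.H t, ∀ q ∈ Z.H t, F p q = Λ * Ex (μ t) (dif p q)) ∧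
      ∀ t : Fin T, t.val ≠ 0 → ∀ z, Z.Below t z → ∀ y, ¬ Z.Below t y →
        ∀ r : ℝ, 0 < r → (∀ a ∈ Z.S t, r ≤ d z a) →
          r ≤ C1 * H254.KK (2 ^ k) * F z y := by
  have hc : ∀ t : Fin T, t.val ≠ 0 → ∀ h : (Fin n → Bool) → ℝ,
      DepOn ((ofTor Z).S t : Set (Fin n)) h → Ex (μ t) h = Ex (μ ((ofTor Z).par t)) h := by
    intro t ht h hh
    exact hcons t (ne_of_lt (Z.up_lt t (Nat.pos_of_ne_zero ht))) h hh
  refine ⟨fun x y => Λ * PM (KK (ofTor Z).elim fun v => μ ((ofTor Z).β v)) fun X =>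
    if X x = X y then 0 else 1, ?_, ?_, ?_⟩
  · exact (isL1_PM ((ofTor Z).kk_ker hμ) id).smul hΛ.le
  · intro t p hp q hq
    show Λ * PM _ _ = _
    rw [(ofTor Z).PM_dif hμ hc (t := t) hp hq]
    rfl
  · intro t ht z hz y hy r hr hra
    obtain ⟨j, hj⟩ := hz
    have hj' : Z.up^[j] (Z.tor z) = t := hj
    have hne := up_iter_ne Z hj' ht
    set s : ℕ → Fin T := fun i => Z.up^[j + 1 - i] (Z.tor z) with hs
    have hsN : s (j + 1) = Z.tor z := by
      simp only [hs, Nat.sub_self, Function.iterate_zero, id_eq]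
    have hs1 : s 1 = t := by
      simp only [hs, Nat.add_sub_cancel]
      exact hj'
    have hpar : ∀ i < j + 1, Z.up (s (i + 1)) = s i := by
      intro i hi
      simp only [hs]
      have e : j + 1 - i = (j + 1 - (i + 1)) + 1 := by omega
      rw [e, Function.iterate_succ_apply']
    have hval : ∀ i < j + 1, (s (i + 1)).val ≠ 0 := by
      intro i hi
      exact hne (j + 1 - (i + 1)) (by omega)
    have hP : Path Z.tree s (j + 1) := by
      refine ⟨Nat.succ_pos _, hpar, fun i hi h => ?_⟩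
      have h1 := Z.up_lt (s (i + 1)) (Nat.pos_of_ne_zero (hval i hi))
      rw [hpar i hi, h] at h1
      exact lt_irrefl _ h1
    obtain ⟨c, Ω, hΩ, w, X, hX, hrc⟩ := hfar s (j + 1) hP z hsN.symm r hr (by
      rw [hs1]
      exact hra)
    have hX' : CoupT (ofTor Z) μ s (j + 1) z c w X := by
      refine ⟨hX.nonneg, ?_, hX.agree, hX.far⟩
      intro i h1 hi h hh
      refine hX.bag i h1 hi h (hh.mono ?_)
      rintro v (hv | hv)
      · exact Finset.mem_coe.2 (Finset.mem_union_left _ (Finset.mem_coe.1 hv))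
      · by_cases h3 : i < j + 1
        · rw [if_pos h3] at hv
          have hv' : v ∈ Z.S (s (i + 1)) := Finset.mem_coe.1 hv
          rcases Z.sub _ v hv' with h4 | h4
          · rw [hpar i h3] at h4
            exact Finset.mem_coe.2 (Finset.mem_union_left _ h4)
          · rw [hpar i h3] at h4
            exact Finset.mem_coe.2 (Finset.mem_union_right _
              (Finset.mem_filter.2 ⟨Finset.mem_univ _, h4⟩))
        · rw [if_neg h3] at hv
          have hv' : v = z := Finset.mem_singleton.1 (Finset.mem_coe.1 hv)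
          have hi' : i = j + 1 := by omega
          rw [hv', hi']
          exact Finset.mem_coe.2 (Finset.mem_union_right _
            (Finset.mem_filter.2 ⟨Finset.mem_univ _, hsN.symm⟩))
    have hy' : ¬ (ofTor Z).Anc (s 1) ((ofTor Z).β y) := by
      rw [hs1, anc_iff]
      exact hy
    have hz' : z ∈ (ofTor Z).H (s (j + 1)) := by
      rw [hsN]
      exact Finset.mem_union_right _ ((ofTor Z).mem_new.2 rfl)
    have h5 := far_bags (ofTor Z) hμ hc (Nat.succ_pos j)
      (fun i hi => ⟨hval i hi, hpar i hi⟩) hz' hk (fun t => Z.card t) hX' hy'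
    refine hrc.trans ?_
    show C1 * (Λ * c) ≤ C1 * H254.KK (2 ^ k) * (Λ * PM _ _)
    have h6 := mul_le_mul_of_nonneg_left h5 (mul_nonneg hC1 hΛ.le)
    calc C1 * (Λ * c) = C1 * Λ * c := by ring
      _ ≤ _ := h6
      _ = _ := by ring

end

end Vale.Agent.P235.K5.SX.H452
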