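import Vale.Agent.P235.K5.H12.Red
import Vale.Agent.P235.H105.Sum
import Vale.Agent.P235.K5.SX.H452.NHalfEq
import Vale.Agent.P235.K5.SX.H332.NLow

set_option linter.all false

/-!
# P235, line SX, row [S4], second half: the cut metric of Theorem N on a sum over cliques, with the
lower bound inside the regions of bags with one new vertex (helper452)
-/

namespace Vale.Agent.P235.K5.SX.H452

open Finset Function Vale.Agent.P235 Vale.Agent.P235.H684 Vale.Agent.P235.K5

section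

variable {k m : ℕ} {V : Type} {H : SimpleGraph V} {B : ℕ → Set V} {TT : ℕ → Prop}
  {RR : ℕ → Set V}

theorem adh_pos {s : ℕ} {v : V} (hv : v ∈ Adh B s) : 0 < s := by
  rcases Nat.eq_zero_or_pos s with h | h
  · subst h
    obtain ⟨_, s', hs', _⟩ := hv
    exact absurd hs' (Nat.not_lt_zero _)
  · exact h

/-- **[S4], second half**, for one value of the constants of `nthmLow`. -/
theorem exists_N_low [Finite V] (h : Glued k H m B) (hnew : ∀ s < m, ∃ v ∈ B s, v ∉ Bef B s)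
    (Tr : BTree m B) (hk : 1 ≤ k) {C1 cN : ℝ} (hC1 : 0 ≤ C1) (hcN : 0 ≤ cN)
    (hN : ∀ (n T : ℕ) (Z : Tor n T k) (d : Fin n → Fin n → ℝ), Z.Sep d →
      ∀ (ty : Fin T → Prop) (RR : Fin T → Finset (Fin n)), SX.H332.Reg Z ty RR →
        SX.H332.NLawLow Z ty RR d C1 cN)
    (hone : ∀ s < m, TT s → ∃ v, v ∉ Adh B s ∧ B s = insert v (Adh B s))
    (hstep : ∀ s < m, TT s → 0 < s → Adh B s ⊆ RR s ∨ (TT (Tr.par s) ∧ RR (Tr.par s) = RR s))
    {d : V → V → ℝ} (hd : IsMet d) (hG : Gen H d) :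
    ∃ F : V → V → ℝ, IsL1 F ∧ (∀ x y, F x y ≤ d x y) ∧
      (∀ t < m, 0 < t → ∀ x ∈ h.Sub Tr t, ∀ y ∉ h.Sub Tr t, ∀ r : ℝ, 0 < r →
        (∀ a ∈ Adh B t, r ≤ d x a) → r ≤ C1 * H254.KK (2 ^ k) * F x y) ∧
      ∀ s < m, TT s → ∀ x ∈ B s, ∀ y ∈ B s, ∀ M : ℝ, M ≤ d x y →
        (∀ r ∈ RR s, ∀ r' ∈ RR s, M ≤ d x r + d y r') → cN * M ≤ F x y := by
  classical
  obtain ⟨N, e, Z, h1, h2, h3, h4, h5, h6⟩ := h.exists_tor hnew Tr
  have hsep := h6 d hd hG
  set tyZ : Fin m → Prop := fun t => TT t.val with htyZ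
  set RZ : Fin m → Finset (Fin N) := fun t =>
    Finset.univ.filter fun i => e.symm i ∈ RR t.val with hRZ
  have hR : ∀ t i, i ∈ RZ t ↔ e.symm i ∈ RR t.val := by
    intro t i
    rw [hRZ]
    simp
  have hS : ∀ (t : Fin m) i, i ∈ Z.S t ↔ e.symm i ∈ Adh B t.val := by
    intro t i
    rw [← h2 t, e.apply_symm_apply]
  have huniq : ∀ s < m, TT s → ∀ v v', h.it v = s → h.it v' = s → v = v' := by
    intro s hs hty v v' hv hv'
    obtain ⟨u, -, hu2⟩ := hone s hs hty
    have key : ∀ w, h.it w = s → w = u := by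
      intro w hw
      have h7 : w ∈ B s := by
        rw [← hw]
        exact h.it_mem w
      rw [hu2] at h7
      rcases h7 with h7 | h7
      · exact h7
      · exfalso
        have h8 := ((h.mem_adh_iff hs).1 h7).2
        omega
    rw [key v hv, key v' hv']
  have hreg : SX.H332.Reg Z tyZ RZ := by
    refine ⟨?_⟩
    intro t hty hup hSR
    have h0 : 0 < t.val := by
      rcases Nat.eq_zero_or_pos t.val with h0 | h0
      · exfalso
        apply hup
        refine le_antisymm (Z.up_le t) ?_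
        rw [Fin.le_def, h0]
        exact Nat.zero_le _
      · exact h0
    have h8 : (Z.up t).val = Tr.par t.val := h4 t
    rcases hstep t.val t.2 hty h0 with h7 | ⟨h7, h7'⟩
    · exfalso
      apply hSR
      intro a ha
      rw [hR]
      exact h7 ((hS t a).1 ha)
    refine ⟨?_, ?_, ?_⟩
    · show TT (Z.up t).val
      rw [h8]
      exact h7
    · ext i
      rw [hR, hR, h8, h7']
    · intro z z' hz hz'
      have h9 : h.it (e.symm z) = Tr.par t.val := by
        rw [← h1, e.apply_symm_apply, hz, h8]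
      have h10 : h.it (e.symm z') = Tr.par t.val := by
        rw [← h1, e.apply_symm_apply, hz', h8]
      have h11 := huniq (Tr.par t.val) ((Tr.par_lt _ h0 t.2).trans t.2) h7 _ _ h9 h10
      exact e.symm.injective h11
  obtain ⟨μ, Λ, hΛ, hμ, hcons, hup, hfar, hlow⟩ := hN _ _ Z _ hsep tyZ RZ hreg
  obtain ⟨F, g1, g2, g3⟩ := n_half_eq Z hk (d := fun i j => d (e.symm i) (e.symm j)) hC1 hΛ hμ
    hcons hfar
  have hF : IsL1 fun x y => F (e x) (e y) := by
    obtain ⟨ι, hι, w, c, hw, hF⟩ := g1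
    exact ⟨ι, hι, w, fun i x => c i (e x), hw, fun x y => hF _ _⟩
  have hbag : ∀ t < m, ∀ x ∈ B t, ∀ y ∈ B t, F (e x) (e y) ≤ d x y := by
    intro t ht x hx y hy
    rw [g2 ⟨t, ht⟩ (e x) ((h3 ⟨t, ht⟩ x).2 hx) (e y) ((h3 ⟨t, ht⟩ y).2 hy)]
    have := hup ⟨t, ht⟩ (e x) ((h3 ⟨t, ht⟩ x).2 hx) (e y) ((h3 ⟨t, ht⟩ y).2 hy)
    simpa using this
  refine ⟨fun x y => F (e x) (e y), hF, ?_, ?_, ?_⟩
  · refine IsL1.le_of_gen hG hF fun u v huv => ?_
    rcases le_total (h.it u) (h.it v) with h7 | h7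
    · exact hbag _ (h.it_lt v) u (h.edge huv h7) v (h.it_mem v)
    · exact hbag _ (h.it_lt u) u (h.it_mem u) v (h.edge huv.symm h7)
  · intro t ht h0 x hx y hy r hr ha
    refine g3 ⟨t, ht⟩ (Nat.pos_iff_ne_zero.1 h0) (e x) ((h5 ⟨t, ht⟩ x).2 hx) (e y)
      (fun hc => hy ((h5 ⟨t, ht⟩ y).1 hc)) r hr ?_
    intro a hal
    have h7 : e.symm a ∈ Adh B t := by
      rw [← h2 ⟨t, ht⟩, e.apply_symm_apply]
      exact hal
    have := ha _ h7
    simpa using this
  · -- the new vertex and the adhesion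
    have hnewpair : ∀ s < m, TT s → ∀ v, v ∈ B s → v ∉ Adh B s → ∀ a ∈ Adh B s, ∀ M : ℝ,
        M ≤ d v a → (∀ r ∈ RR s, ∀ r' ∈ RR s, M ≤ d v r + d a r') →
        cN * M ≤ F (e v) (e a) := by
      intro s hs hty v hv hvA a ha M hM hMR
      have h7 : h.it v = s := by
        rcases (h.it_le hs hv).lt_or_eq with h8 | h8
        · exact absurd ((h.mem_adh_iff hs).2 ⟨hv, h8⟩) hvA
        · exact h8
      have h8 : Z.tor (e v) = ⟨s, hs⟩ := Fin.ext (by rw [h1, h7])
      have h9 : e a ∈ Z.S ⟨s, hs⟩ := (h2 ⟨s, hs⟩ a).2 ha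
      have h10 := hlow ⟨s, hs⟩ hty (e v) h8 (e a) h9 M (by simpa using hM) (by
        intro r hr r' hr'
        rw [hR] at hr hr'
        have := hMR _ hr _ hr'
        simpa using this)
      rw [g2 ⟨s, hs⟩ (e v) ((h3 ⟨s, hs⟩ v).2 hv) (e a) ((h3 ⟨s, hs⟩ a).2 ha.1)]
      exact h10
    intro s
    induction s using Nat.strong_induction_on with
    | _ s ih =>
      intro hs hty p hp q hq M hM hMR
      have hnn : ∀ x y, 0 ≤ F (e x) (e y) := fun x y => hF.nonneg x y
      have htriv : M ≤ 0 → cN * M ≤ F (e p) (e q) := fun hM0 =>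
        (mul_nonpos_of_nonneg_of_nonpos hcN hM0).trans (hnn p q)
      by_cases hpq : p = q
      · refine htriv ?_
        rw [hpq, hd.self] at hM
        exact hM
      obtain ⟨v, hv1, hv2⟩ := hone s hs hty
      have hvC : v ∈ B s := by
        rw [hv2]
        exact Set.mem_insert _ _
      have hp' := hp
      have hq' := hq
      rw [hv2] at hp' hq'
      rcases hp' with hp' | hp'
      · rcases hq' with hq' | hq'
        · exact absurd (hp'.trans hq'.symm) hpq
        · rw [hp'] at hM hMR ⊢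
          exact hnewpair s hs hty v hvC hv1 q hq' M hM hMR
      · rcases hq' with hq' | hq'
        · rw [hq'] at hM hMR ⊢
          have h7 : F (e p) (e v) = F (e v) (e p) := hF.symm p v
          show cN * M ≤ F (e p) (e v)
          rw [h7]
          refine hnewpair s hs hty v hvC hv1 p hp' M ?_ ?_
          · rw [hd.symm v p]
            exact hM
          · intro r hr r' hr'
            have := hMR r' hr' r hr
            linarith
        · rcases hstep s hs hty (adh_pos hp') with hin | ⟨h7, h7'⟩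
          · refine htriv ?_
            have := hMR p (hin hp') q (hin hq')
            rw [hd.self, hd.self] at this
            linarith
          · have h0 : 0 < s := adh_pos hp'
            have h8 := Tr.par_lt s h0 hs
            refine ih (Tr.par s) h8 (h8.trans hs) h7 p (Tr.adh s h0 hs hp') q
              (Tr.adh s h0 hs hq') M hM ?_
            rw [h7']
            exact hMR

end

/-- **[S4], `NStmt`** of helper655 (the structure `Region` unfolded) -/
theorem nStmt : ∀ k : ℕ, 1 ≤ k → ∃ cN C2 : ℝ, 0 < cN ∧ cN ≤ 1 ∧ 0 < C2 ∧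
    ∀ (V : Type) [Finite V] (H : SimpleGraph V) (m : ℕ) (B : ℕ → Set V) (h : Glued k H m B)
      (T : BTree m B) (TT : ℕ → Prop) (RR : ℕ → Set V), (∀ t < m, ∃ v ∈ B t, v ∉ Bef B t) →
      (∀ s < m, TT s → ∃ v, v ∉ Adh B s ∧ B s = insert v (Adh B s)) →
      (∀ s < m, TT s → 0 < s → Adh B s ⊆ RR s ∨ (TT (T.par s) ∧ RR (T.par s) = RR s)) →
      ∀ d : V → V → ℝ, IsMet d → Gen H d → ∃ F : V → V → ℝ, IsL1 F ∧ (∀ x y, F x y ≤ d x y) ∧
        (∀ t < m, 0 < t → ∀ x ∈ h.Sub T t, ∀ y ∉ h.Sub T t, ∀ r : ℝ, 0 < r →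
          (∀ a ∈ Adh B t, r ≤ d x a) → r ≤ C2 * F x y) ∧
        ∀ s < m, TT s → ∀ x ∈ B s, ∀ y ∈ B s, ∀ M : ℝ, M ≤ d x y →
          (∀ r ∈ RR s, ∀ r' ∈ RR s, M ≤ d x r + d y r') → cN * M ≤ F x y := by
  intro k hk
  obtain ⟨C1, cN, hC1, hcN, hN⟩ := SX.H332.nthmLow k hk
  refine ⟨min cN 1, C1 * H254.KK (2 ^ k), lt_min hcN one_pos, min_le_right _ _,
    mul_pos hC1 (KK_pos _), ?_⟩
  intro V _ H m B h T TT RR hnew hone hstep d hd hG
  obtain ⟨F, h1, h2, h3, h4⟩ := exists_N_low h hnew T hk hC1.le hcN.le hN hone hstep hd hG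
  refine ⟨F, h1, h2, h3, ?_⟩
  intro s hs hT x hx y hy M hM hMR
  rcases le_total 0 M with h0 | h0
  · exact (mul_le_mul_of_nonneg_right (min_le_left _ _) h0).trans (h4 s hs hT x hx y hy M hM hMR)
  · exact (mul_nonpos_of_nonneg_of_nonpos (lt_min hcN one_pos).le h0).trans (h1.nonneg x y)

end Vale.Agent.P235.K5.SX.H452
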