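import Vale.Agent.P235.K5.SX.Asm
import Vale.Agent.P235.K5.SX.H452.ExistsN

/-!
# P235, line SX, row [S4]: the literal `NStmt` of helper655 (helper452)
-/

namespace Vale.Agent.P235.K5.SX.H452

open Vale.Agent.P235 Vale.Agent.P235.K5

/-- **[S4]** -/
theorem n : NStmt := by
  intro k hk
  obtain ⟨cN, C2, h1, h2, h3, h4⟩ := nStmt k hk
  exact ⟨cN, C2, h1, h2, h3, fun V _ H m B h T TT RR hnew hR d hd hG =>
    h4 V H m B h T TT RR hnew hR.one hR.step d hd hG⟩

end Vale.Agent.P235.K5.SX.H452
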