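import Vale.Agent.P235.K5.SX.H696.S1
import Vale.Agent.P235.K5.SX.H378.S2Fin
import Vale.Agent.P235.K5.SX.H183.S3Lit
import Vale.Agent.P235.K5.SX.H655.S5
import Vale.Agent.P235.K5.SX.H964.S6
import Vale.Agent.P235.K5.SX.H452.N

/-!
# P235, line SX: sums over cliques with at most three vertices of pieces of the class `PC c` and
pieces of treewidth at most `w`, no hypothesis left
-/

namespace Vale.Agent.P235.K5.SX.H452

open Vale.Agent.P235 Vale.Agent.P235.K5

/-- **Line SX, closed.** -/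
theorem sx (w : ℕ) (c : ℝ) (hc : 0 < c) (hc1 : c ≤ 1) :
    ∃ K : ℝ, 1 ≤ K ∧ ∀ (V : Type) [Finite V] (G H : SimpleGraph V), G ≤ H → G.Connected →
      Sum3 w c H → DistortionLE G K :=
  fin SX.H696.s1Stmt SX.H378.s2Stmt SX.H183.s3 n SX.H655.s5 SX.H964.s6 w c hc hc1

end Vale.Agent.P235.K5.SX.H452
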